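import Vale.Agent.P366Q.G.Fl.F3
import Vale.Agent.P366Q.G.E4

/-!
# P366Q, block G: the radius at a good step
-/

open MeasureTheory Metric Filter Topology Set
open scoped ContDiff ENNReal
open Vale.Agent.P366 Vale.Agent.P366.Stmt Vale.Agent.P366Z

noncomputable section

namespace Vale.Agent.P366M.G

variable {n : ℕ} {M : Type} [Mfe n M]

theorem h_low {a U h θ η₁ η₂ δ₂ : ℝ} (ha : 0 < a) (U0 : 0 < U) (h0 : 0 < h) (θ0 : 0 < θ)
    (d0 : 0 < δ₂) (d1 : δ₂ ≤ 1) (e1 : η₁ ≤ δ₂ / 8) (e2 : θ + 2 * η₂ ≤ δ₂ / 8)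
    (hU : U ≤ a * (1 + (1 - δ₂ / 2) + η₁))
    (hv : |U * (1 + (1 - θ) * h) / 2 - (1 / 2 * a + (1 - θ) / 2 * a)| ≤ η₂ * a) : δ₂ / 8 ≤ h := by
  have h1 := (abs_le.1 hv).1
  have h2 : a * (2 - δ₂ / 8) ≤ U * (1 + h) := by
    nlinarith [mul_pos U0 (mul_pos θ0 h0), mul_le_mul_of_nonneg_left e2 ha.le]
  have h3 : U ≤ a * (2 - 3 * δ₂ / 8) := hU.trans (mul_le_mul_of_nonneg_left (by linarith) ha.le)
  have h4 := h2.trans (mul_le_mul_of_nonneg_right h3 (by positivity))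
  rw [mul_assoc] at h4
  have h5 := le_of_mul_le_mul_left h4 ha
  by_contra h6
  nlinarith [not_le.1 h6]

theorem pigeon {t : ℕ → ℝ} {Mm W : ℕ} {S : ℝ} (M0 : 0 < Mm) (W0 : 0 < W)
    (t0 : ∀ i < 2 * W * Mm, 0 ≤ t i) (hS : ∑ i ∈ Finset.range (2 * W * Mm), t i ≤ S) :
    ∃ i, i + Mm < 2 * W * Mm ∧ ∑ j ∈ Finset.range Mm, t (i + j) ≤ S / W ∧
      Mm * t (i + Mm) ≤ S / W := by
  have h1 : ∀ w, ∑ i ∈ Finset.range (w * (2 * Mm)), t i =
      ∑ b ∈ Finset.range w, ∑ j ∈ Finset.range (2 * Mm), t (b * (2 * Mm) + j) := fun w => by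
    induction w with
    | zero => simp
    | succ w ih => rw [Finset.sum_range_succ, ← ih, add_mul, one_mul, Finset.sum_range_add]
  have Wp : (0 : ℝ) < W := by exact_mod_cast W0
  have Mp : (0 : ℝ) < Mm := by exact_mod_cast M0
  rw [show 2 * W * Mm = W * (2 * Mm) by ring, h1] at hS
  obtain ⟨b, hb, h2⟩ := Finset.exists_le_of_sum_le (s := Finset.range W)
    (f := fun b => ∑ j ∈ Finset.range (2 * Mm), t (b * (2 * Mm) + j)) (g := fun _ => S / W)
    ⟨0, Finset.mem_range.2 W0⟩ (by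
      rw [Finset.sum_const, Finset.card_range, nsmul_eq_mul, mul_div_cancel₀ _ Wp.ne']; exact hS)
  have hb' : b * (2 * Mm) + 2 * Mm ≤ 2 * W * Mm := by
    have := Finset.mem_range.1 hb
    nlinarith
  have t1 : ∀ j ∈ Finset.range (2 * Mm), 0 ≤ t (b * (2 * Mm) + j) := fun j hj =>
    t0 _ (by have := Finset.mem_range.1 hj; omega)
  have h3 : ∑ j ∈ Finset.range Mm, t (b * (2 * Mm) + (Mm + j)) ≤ S / W := by
    refine le_trans ?_ h2
    rw [two_mul Mm, Finset.sum_range_add, ← two_mul Mm]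
    exact le_add_of_nonneg_left (Finset.sum_nonneg fun j hj =>
      t1 j (Finset.mem_range.2 (by have := Finset.mem_range.1 hj; omega)))
  obtain ⟨j₀, hj, h4⟩ := Finset.exists_le_of_sum_le (s := Finset.range Mm)
    (f := fun j => t (b * (2 * Mm) + (Mm + j))) (g := fun _ => S / W / Mm)
    ⟨0, Finset.mem_range.2 M0⟩ (by
      rw [Finset.sum_const, Finset.card_range, nsmul_eq_mul, mul_div_cancel₀ _ Mp.ne']; exact h3)
  have hj' := Finset.mem_range.1 hj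
  refine ⟨b * (2 * Mm) + j₀, by omega, le_trans ?_ h2, ?_⟩
  · have h5 : ∑ j ∈ Finset.range Mm, t (b * (2 * Mm) + j₀ + j) =
        ∑ j ∈ Finset.Ico j₀ (j₀ + Mm), t (b * (2 * Mm) + j) := by
      rw [Finset.sum_Ico_eq_sum_range]; simp [add_assoc]
    rw [h5]
    exact Finset.sum_le_sum_of_subset_of_nonneg (fun j hj => Finset.mem_range.2 (by
      have := (Finset.mem_Ico.1 hj).2; omega)) fun j hj _ => t1 j hj
  · rw [le_div_iff₀ Mp, mul_comm] at h4
    rwa [show b * (2 * Mm) + j₀ + Mm = b * (2 * Mm) + (Mm + j₀) by ring]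

namespace Pm

variable {P : Pm n M} {d : ℕ → Dt M} {k K i : ℕ}

/-- the relations that bound the radius -/
structure Tp (P : Pm n M) (η₁ η₂ δ₂ δE : ℝ) : Prop where
  e4 : E4C M (2 * P.C₀) (P.c / 2) (δ₂ / 8) δE
  c0 : 0 < P.c
  d0 : 0 < δ₂
  d1 : δ₂ ≤ 1
  e1 : η₁ ≤ δ₂ / 8
  e2 : P.θ + 2 * η₂ ≤ δ₂ / 8
  e3 : P.θ ≤ δ₂ / 16
  dE : 10 * P.δ ≤ δE
  hD : P.K * P.D ≤ P.δ * P.r₀
  η1 : P.η ≤ δE / 8
  η2 : P.N * (2 * P.η * P.N / P.κ) ≤ P.c / 2 * (δE / 8) ^ n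

namespace Ok

variable (H : P.Ok) {CN η₁ η₂ eS e' t T₁ σ δ₂ δE : ℝ}
include H

theorem fat (hN : NEST) (T : P.Tp η₁ η₂ δ₂ δE) (hG : P.Good d (k + 1)) (hI : ∀ j ≤ k, P.Inv d j)
    (hk : k ≤ P.N) (hi : i ≤ k) {x₀ : E n} {t₀ R : ℝ} (ht : δE / 8 ≤ t₀)
    (hb : ∀ y ∈ ball x₀ R, P.B.ρ ≤ ‖y‖) (hF : Fat {y | fe (d i).ψ y = 0} P.c x₀ P.η R) :
    Fat {y | fe (d k).h y ≤ δ₂ / 8 / 2} (P.c / 2) x₀ t₀ R := by
  intro s s1 s2
  have hO := (hG k (by omega)).1
  have hO' := (hG i (by omega)).1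
  have c0 := hO.near.1.lip.cont
  have c1 := hO'.near.1.lip.cont
  have dE0 : 0 < δE := by linarith [T.dE, H.δ0]
  have h1 := hF s (T.η1.trans (ht.trans s1)) s2
  have ρ1 := H.hB.flat.lt
  set A : Set M := px ⁻¹' ball x₀ s ∩ {x | (d i).ψ x = 0 ∧ (d k).ψ x = 1} with hA
  have mA : MeasurableSet A := (isOpen_ball.preimage cont_px).measurableSet.inter
    ((isClosed_eq c1 continuous_const).inter (isClosed_eq c0 continuous_const)).measurableSet
  have bA : ∀ x ∈ A, P.B.ρ ≤ ‖px x‖ := fun x hx => hb _ (ball_subset_ball s2 hx.1)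
  have h2 : ball x₀ s ∩ {y | fe (d i).ψ y = 0} ⊆
      (ball x₀ s ∩ {y | fe (d k).h y ≤ δ₂ / 8 / 2}) ∪ {y | P.B.ρ ≤ ‖y‖ ∧ yp y ∈ A} := by
    rintro y ⟨y1, y2⟩
    have y3 := hb y (ball_subset_ball s2 y1)
    rcases (hO.near.1.mem (yp y)).2.eq_or_lt with h | h
    · exact Or.inr ⟨y3, by rwa [mem_preimage, px_yp (by linarith)], y2, h⟩
    · exact Or.inl ⟨y1, (hO.small _ (Or.inl h)).trans (by linarith [T.e3])⟩
  have h3 := set_le_int H.hB H.hP ((c0.sub c1).max (continuous_const (y := (0 : ℝ))))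
    (fun x => le_max_right _ _) mA fun x hx => by
      have h4 : ‖px x‖ ≤ P.L := by
        by_contra h2
        have := hO'.near.1.one x (not_le.1 h2).le
        rw [hx.2.1] at this; exact zero_ne_one this
      simp only [Pi.sub_apply]
      rw [H.hP.m1 x h4, hx.2.1, hx.2.2]; simp
  have h4 : ∫⁻ x in A, ENNReal.ofReal (dens P.B.g x) = volume A := by
    rw [setLIntegral_congr_fun mA (g := fun _ => 1) fun x hx => by
      simp only [H.hB.flat.dens_eq (bA x hx), ENNReal.ofReal_one]]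
    simp
  have s0 : 0 < s := lt_of_lt_of_le (by positivity) (ht.trans s1)
  have c2 := T.c0
  have h5 : (k : ℝ) * (2 * P.η * P.N / P.κ) ≤ P.c / 2 * s ^ n := by
    refine le_trans (mul_le_mul_of_nonneg_right (by exact_mod_cast hk) ?_) (T.η2.trans ?_)
    · have := H.η0; have := H.κ0; positivity
    · gcongr; exact ht.trans s1
  rw [h4, ← vol_far ρ1.le mA bA] at h3
  have h6 := h1.trans ((measure_mono h2).trans ((measure_union_le _ _).trans (add_le_add le_rfl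
    (h3.trans (ENNReal.ofReal_le_ofReal ((H.nest' hN hG hI hi).trans h5))))))
  have q0 : 0 ≤ P.c / 2 * s ^ n := by positivity
  rw [show P.c * s ^ n = P.c / 2 * s ^ n + P.c / 2 * s ^ n by ring, ENNReal.ofReal_add q0 q0] at h6
  exact (ENNReal.add_le_add_iff_right ENNReal.ofReal_ne_top).1 h6

set_option maxHeartbeats 1000000 in
theorem radius (hA : ASY) (hN : NEST) (S : P.Sh CN η₁ η₂ eS e' t T₁ σ) (T : P.Tp η₁ η₂ δ₂ δE)
    (hG : P.Good d (k + 1)) (hI : ∀ j ≤ k, P.Inv d j) (hk : k ≤ P.N) (hρ : 4 * P.B.ρ ≤ P.rs k)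
    (hm : P.a k * P.mt d k ≤ e' * P.μ) (hU : ∀ x, (1 + P.δ / 4) * P.R d k ≤ ‖px x‖ →
      P.U d k x ≤ P.a k * (1 + (P.rs k / ‖px x‖) ^ (n - 2 : ℝ) + η₁)) :
    P.ϱ d (k + 1) ≤ (1 + δ₂) * P.rs (k + 1) := by
  by_contra hc
  replace hc := not_le.1 hc
  set ϱ₁ := P.ϱ d (k + 1) with hϱ
  have hB := H.hB
  have ρ1 := hB.one
  have r0 := H.rs_pos k
  have r1 : P.rs k ≤ P.rs (k + 1) := H.rs_mono (by omega)
  have d0 := T.d0
  have δ0 := H.δ0
  have δ1 := H.δ1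
  have r2 : P.rs (k + 1) < ϱ₁ := by nlinarith
  have hS := (hI k le_rfl).1
  have hO := (hG k (by omega)).1
  have a0 := H.a_pos k
  have low : ∀ x, (1 + P.δ) * ϱ₁ ≤ ‖px x‖ → δ₂ / 8 ≤ (d k).h x := fun x hx => by
    have h1 : (1 + P.δ / 4) * P.R d (k + 1) ≤ ‖px x‖ := by
      refine le_trans ?_ hx
      unfold R
      rw [max_eq_left r2.le, ← mul_assoc]
      exact mul_le_mul_of_nonneg_right (by nlinarith) (by linarith)
    have x1 : ϱ₁ ≤ ‖px x‖ := le_trans (le_mul_of_one_le_left (by linarith) (by linarith)) hx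
    have x0 : 0 < ‖px x‖ := by linarith
    have h2 := hU x (le_trans (mul_le_mul_of_nonneg_left (H.R_mono (by omega)) (by positivity)) h1)
    have h3 : (P.rs k / ‖px x‖) ^ (n - 2 : ℝ) ≤ 1 - δ₂ / 2 := by
      have h5 : (P.rs k / ‖px x‖) ^ (n - 2 : ℝ) ≤ (P.rs k / ‖px x‖) ^ (1 : ℝ) :=
        Real.rpow_le_rpow_of_exponent_ge (by positivity)
          (div_le_one_of_le₀ (by linarith) x0.le) (by
          have : (3 : ℝ) ≤ n := by exact_mod_cast H.dim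
          linarith)
      rw [Real.rpow_one] at h5
      refine h5.trans ?_
      rw [div_le_iff₀ x0]
      have h6 : (1 + δ₂) * P.rs k ≤ ‖px x‖ := by nlinarith
      nlinarith [mul_le_mul_of_nonneg_left h6 (show 0 ≤ 1 - δ₂ / 2 by linarith [T.d1]),
        mul_nonneg (mul_nonneg d0.le (sub_nonneg.2 T.d1)) r0.le]
    exact h_low a0 (hS.pos hB x) (hO.h01 x).1 H.θ0 d0 T.d1 T.e1 T.e2
      (h2.trans (mul_le_mul_of_nonneg_left (by linarith) a0.le)) (H.stab hA S hG hI hk hm h1)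
  obtain h0 | ⟨j, hj, h0⟩ := ϱ_cases (P := P) (d := d) (k + 1)
  · rw [← hϱ] at h0; linarith
  rw [← hϱ] at h0
  have aj := H.a_pos j
  have r3 : P.rs j ≤ P.rs (k + 1) := H.rs_mono hj.le
  have r4 := H.r0
  obtain ⟨x₀, x1, x2, hF⟩ := (hG j hj).2.2 (P.rs (k + 1)) (by linarith) (by rw [← h0]; exact r2.le)
    (by
      have := mul_le_mul_of_nonneg_left r3 (Real.rpow_pos_of_pos aj (bb n)).le
      rw [H.ab_rs] at this
      nlinarith [T.hD])
    fun x hx => H.up2 (hG.mono hj.le) (fun i hi => hI i (by omega)) (by omega) (by linarith)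
  rw [← h0] at x1 x2
  have x3 : ϱ₁ * (1 - P.δ / 4) ≤ ‖x₀‖ := by
    have h1 := mul_le_mul_of_nonneg_right T.hD (Real.rpow_pos_of_pos aj (-bb n)).le
    have h2 : P.δ * P.r₀ * P.a j ^ (-bb n) = P.δ * P.rs j := mul_assoc _ _ _
    have h3 := mul_le_mul_of_nonneg_left (r3.trans r2.le) δ0.le
    linarith
  have x4 : 3 / 4 * ϱ₁ ≤ ‖x₀‖ := by nlinarith
  have nb : ∀ y ∈ ball x₀ (‖x₀‖ / 4), P.rs k / 2 ≤ ‖y‖ := fun y hy => by
    have h1 := mem_ball_iff_norm.1 hy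
    have h2 := norm_sub_norm_le x₀ y
    rw [norm_sub_rev] at h2
    linarith
  have dE0 : 0 < δE := by linarith [T.dE]
  have x5 : 0 < ‖x₀‖ := by linarith
  have ρ2 := hB.flat.R
  have x6 : (1 + P.δ) * ϱ₁ ≤ ‖(1 + δE / 5) • x₀‖ := by
    rw [norm_smul, Real.norm_of_nonneg (by positivity)]
    refine le_trans ?_ (mul_le_mul_of_nonneg_left x3 (by positivity))
    have h1 : 1 + P.δ ≤ (1 + δE / 5) * (1 - P.δ / 4) := by nlinarith [T.dE]
    nlinarith [mul_le_mul_of_nonneg_right h1 (show 0 ≤ ϱ₁ by linarith)]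
  have x7 : px (yp ((1 + δE / 5) • x₀) : M) = (1 + δE / 5) • x₀ := px_yp (by nlinarith)
  have key := T.e4 (P.U d k) (d k).h x₀ (P.a k / 2) (‖x₀‖ / 4) (half_pos a0) (by positivity) hS.sm
    hO.sm (fun y hy => by linarith [nb y hy]) (fun y hy => by
      have y1 := nb _ hy
      have y2 : P.B.ρ < ‖px y‖ := by linarith
      refine ⟨hS.half hB y, by linarith [H.up2 (hG.mono (by omega)) hI hk y1], ?_, ?_,
        (hO.h01 y).1.le, (hO.h01 y).2⟩
      · rw [← hB.flat.lap_eq y2]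
        exact (hS.sup y).trans (hB.Q_mul y2.le (hS.pos hB y).le (hS.le_two hB y)).1
      · rw [← hB.flat.wl_eq y2]; exact hO.sub y)
    (H.fat hN T hG hI hk (by omega) (by nlinarith) (fun y hy => by linarith [nb y hy]) hF)
    (yp ((1 + δE / 5) • x₀)) (by
      rw [x7, mem_ball_iff_norm, add_smul, one_smul, add_sub_cancel_left, norm_smul,
        Real.norm_of_nonneg (by positivity)]
      nlinarith [mul_pos dE0 x5])
  exact absurd (low _ (by rwa [x7])) (not_le.2 key)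

theorem final (hA : ASY) (hU : UPD) (hL : HLOW) (hN : NEST) (hR : RAMP)
    (S : P.Sh CN η₁ η₂ eS e' t T₁ σ) (T : P.Tp η₁ η₂ δ₂ δE) (hG : P.Good d P.N) {W : ℕ}
    (W0 : 0 < W) (t1 : t ≤ 1 / 2) (hT : 2 * Real.log (2 / t) ≤ T₁) (w1 : 2 / W ≤ σ)
    (w2 : 4 / W ≤ e') (hW : 2 * W * T₁ + 1 ≤ P.N * P.τ) (hL' : 4 * P.rH P.N < P.L) :
    ∃ k < P.N, ∃ ψ, Cls P.B P.L ψ ∧ per P.B (P.U d k) ψ ≤ omega n *
      ((1 + P.δ) * (1 + δ₂) * P.lam ^ (-bb n) * P.r₀) ^ (n - 1 : ℝ) * (2 + η₁) ^ (2 * gam n) +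
      P.η := by
  obtain ⟨J, j1, j2⟩ := exists_lag H.lam_half H.lam_lt S.t0 (by linarith)
  set Mm := J + 1 with hM
  have τ0 := H.τ0
  have t0 := S.t0
  have M1 : Mm * P.τ ≤ T₁ := by
    have h1 : P.lam ≤ Real.exp (-(P.τ / 2)) := by
      linarith [H.lam_hi, Real.add_one_le_exp (-(P.τ / 2))]
    have h2 := j1.trans (pow_le_pow_left₀ H.lam_pos.le h1 Mm)
    rw [← Real.exp_nat_mul, ← Real.log_le_iff_le_exp (by positivity), ← inv_div,
      Real.log_inv] at h2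
    linarith
  have M2 : 1 / 2 ≤ Mm * P.τ := by
    have h1 := one_add_mul_le_pow (show -2 ≤ -P.τ by linarith [H.τ1]) Mm
    have h2 := pow_le_pow_left₀ (show 0 ≤ 1 + -P.τ by linarith [H.τ1])
      (show 1 + -P.τ ≤ P.lam by linarith [H.lam_lo]) Mm
    linarith
  have Wp : (0 : ℝ) < W := by exact_mod_cast W0
  have hK : 2 * W * Mm + 1 ≤ P.N := by
    have h1 : ((2 * W * Mm + 1 : ℕ) : ℝ) * P.τ ≤ P.N * P.τ := by
      push_cast
      nlinarith [mul_le_mul_of_nonneg_left M1 Wp.le, H.τ1]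
    exact_mod_cast le_of_mul_le_mul_right h1 τ0
  have hI := H.inv hU hL hG le_rfl
  obtain ⟨i, i1, i2, i3⟩ := pigeon (t := fun k => P.τ * (P.a k * P.mt d k)) (Mm := Mm) (W := W)
    (by omega) W0 (fun i hi => mul_nonneg τ0.le (H.amt_nonneg hG (by omega)))
    (H.sum_mt (hG.mono hK) (by omega))
  have μ0 := H.μ0
  have hG' : P.Good d (i + Mm + 1) := hG.mono (by omega)
  have hI' : ∀ j ≤ i + Mm, P.Inv d j := fun j hj => hI j (by omega)
  have sh := fun x => H.sharp hA hL S hG' hI' (by omega) j1 j2 M1 (x := x) (i2.trans (by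
    have := mul_le_mul_of_nonneg_right w1 μ0.le
    rwa [div_mul_eq_mul_div] at this))
  have hm : P.a (i + Mm) * P.mt d (i + Mm) ≤ e' * P.μ := by
    have h1 := mul_le_mul_of_nonneg_right M2 (H.amt_nonneg hG' (show i + Mm < _ by omega))
    have h2 := mul_le_mul_of_nonneg_right w2 μ0.le
    have h3 : 4 / W * P.μ = 2 * (2 * P.μ / W) := by ring
    linarith
  have hρ : 4 * P.B.ρ ≤ P.rs (i + Mm) := by
    linarith [H.lag_R S (hG.mono (show i ≤ P.N by omega)) j2, H.ρ_le_R (d := d) i]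
  have rad := H.radius hA hN S T hG' hI' (by omega) hρ hm sh
  set k := i + Mm with hk
  have hS := (hI' k le_rfl).1
  have r0 := H.rs_pos k
  have r1 : P.rs k ≤ P.rs (k + 1) := H.rs_mono (by omega)
  have δ0 := H.δ0
  have δ1 := H.δ1
  have d0 := T.d0
  have d1 := T.d1
  have a0 := H.a_pos k
  have q1 : 1 ≤ (1 + P.δ) * (1 + δ₂) := by nlinarith
  have q2 : (1 + P.δ) * (1 + δ₂) ≤ 4 := by nlinarith
  have q3 : P.rs k ≤ (1 + P.δ) * (1 + δ₂) * P.rs (k + 1) :=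
    r1.trans (le_mul_of_one_le_left (by linarith) q1)
  have η0 : 0 ≤ η₁ := le_trans (by have := H.C₀_ge; have := H.r0; have := H.rh_pos; positivity) S.t2
  obtain ⟨ψ, h1, h2⟩ := hR n M P.B (P.U d k) P.L ((1 + P.δ) * (1 + δ₂) * P.rs (k + 1))
    (P.a k * (2 + η₁)) P.η H.hB hS.sm.cont (by linarith [H.hB.one]) (by
      have := (H.rs_le (k + 1)).trans (H.rH_mono (show k + 1 ≤ P.N by omega))
      nlinarith) H.η0 fun x hx => ⟨(hS.pos H.hB x).le, by
      have h3 : (1 + P.δ / 4) * P.R d k ≤ ‖px x‖ := by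
        refine le_trans ?_ hx
        have h4 : max (P.ϱ d k) (P.rs k) ≤ (1 + δ₂) * P.rs (k + 1) :=
          max_le ((ϱ_mono (by omega)).trans rad)
            (r1.trans (le_mul_of_one_le_left (by linarith) (by linarith)))
        unfold R
        rw [← mul_assoc, mul_assoc (1 + P.δ)]
        exact mul_le_mul (by nlinarith) h4 (le_max_of_le_right r0.le) (by linarith)
      have h4 : (P.rs k / ‖px x‖) ^ (n - 2 : ℝ) ≤ 1 := Real.rpow_le_one (by positivity)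
        (div_le_one_of_le₀ (q3.trans hx) (norm_nonneg _)) (nm2_pos H.dim).le
      exact (sh x h3).trans (mul_le_mul_of_nonneg_left (by linarith) a0.le)⟩
  refine ⟨k, by omega, ψ, h1, h2.trans (le_of_eq ?_)⟩
  have l0 := H.lam_pos
  have r00 := H.r0
  have e1 : (1 + P.δ) * (1 + δ₂) * P.rs (k + 1) =
      (1 + P.δ) * (1 + δ₂) * P.lam ^ (-bb n) * P.r₀ * P.a k ^ (-bb n) := by
    have : P.a (k + 1) = P.a k * P.lam := pow_succ _ _
    unfold rs
    rw [this, Real.mul_rpow a0.le l0.le]; ring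
  rw [e1, Real.mul_rpow a0.le (by positivity),
    ← H.pow_nm1 (r := (1 + P.δ) * (1 + δ₂) * P.lam ^ (-bb n) * P.r₀) (by positivity) k]
  ring

end Ok

end Pm

end Vale.Agent.P366M.G
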